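import Mathlib

/-!
# Generalised Hölder inequality for a sum over `N` of lower integrals

For finitely many families `f i N : X N → ℝ≥0∞` (one measure space `X N` for every `N`),
exponents `p i ≥ 0` with sum one and weights `c N`:
`∑' N, c N * ∫⁻ ∏ i, (f i N) ^ p i ≤ ∏ i, (∑' N, c N * ∫⁻ f i N) ^ p i`.
This is Hölder for the measure `∑ N, c N • μ N` on the disjoint union of the `X N`
(grand canonical sums: `X N = Fin N → E`, `c N = 1 / N!`).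
-/

namespace Vale.Agent.H72

open MeasureTheory ENNReal

/-- Generalised Hölder inequality for `∑' N, c N * ∫⁻ · ∂(μ N)`. -/
theorem holder_tsum_lintegral {ι : Type*} (s : Finset ι) (p : ι → ℝ)
    (hp0 : ∀ i ∈ s, 0 ≤ p i) (hp1 : ∑ i ∈ s, p i = 1)
    {X : ℕ → Type*} [∀ N, MeasurableSpace (X N)] (μ : ∀ N, Measure (X N))
    (c : ℕ → ℝ≥0∞) (f : ι → ∀ N, X N → ℝ≥0∞)
    (hf : ∀ i ∈ s, ∀ N, AEMeasurable (f i N) (μ N)) :
    ∑' N, c N * ∫⁻ x, ∏ i ∈ s, f i N x ^ p i ∂(μ N) ≤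
      ∏ i ∈ s, (∑' N, c N * ∫⁻ x, f i N x ∂(μ N)) ^ p i := by
  have h1 : ∀ N, c N * ∫⁻ x, ∏ i ∈ s, f i N x ^ p i ∂(μ N) ≤
      ∏ i ∈ s, (c N * ∫⁻ x, f i N x ∂(μ N)) ^ p i := by
    intro N
    have h := ENNReal.lintegral_prod_norm_pow_le (μ := c N • μ N) s (f := fun i => f i N)
      (fun i hi => (hf i hi N).smul_measure (c N)) hp1 hp0
    simpa [lintegral_smul_measure] using h
  calc ∑' N, c N * ∫⁻ x, ∏ i ∈ s, f i N x ^ p i ∂(μ N)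
      ≤ ∑' N, ∏ i ∈ s, (c N * ∫⁻ x, f i N x ∂(μ N)) ^ p i := ENNReal.tsum_le_tsum h1
    _ = ∫⁻ N, ∏ i ∈ s, (c N * ∫⁻ x, f i N x ∂(μ N)) ^ p i ∂(Measure.count : Measure ℕ) := by
        rw [lintegral_count]
    _ ≤ ∏ i ∈ s, (∫⁻ N, c N * ∫⁻ x, f i N x ∂(μ N) ∂(Measure.count : Measure ℕ)) ^ p i :=
        ENNReal.lintegral_prod_norm_pow_le s
          (fun i _ => measurable_from_nat.aemeasurable) hp1 hp0
    _ = ∏ i ∈ s, (∑' N, c N * ∫⁻ x, f i N x ∂(μ N)) ^ p i := by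
        simp only [lintegral_count]

/-- The same with equal exponents `1 / card s`. -/
theorem holder_tsum_lintegral_card {ι : Type*} (s : Finset ι) (hs : s.Nonempty)
    {X : ℕ → Type*} [∀ N, MeasurableSpace (X N)] (μ : ∀ N, Measure (X N))
    (c : ℕ → ℝ≥0∞) (f : ι → ∀ N, X N → ℝ≥0∞)
    (hf : ∀ i ∈ s, ∀ N, AEMeasurable (f i N) (μ N)) :
    ∑' N, c N * ∫⁻ x, ∏ i ∈ s, f i N x ^ ((s.card : ℝ)⁻¹) ∂(μ N) ≤
      ∏ i ∈ s, (∑' N, c N * ∫⁻ x, f i N x ∂(μ N)) ^ ((s.card : ℝ)⁻¹) := by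
  have hcard : (0 : ℝ) < s.card := by exact_mod_cast hs.card_pos
  refine holder_tsum_lintegral s (fun _ => (s.card : ℝ)⁻¹) (fun _ _ => ?_) ?_ μ c f hf
  · positivity
  · rw [Finset.sum_const, nsmul_eq_mul]
    field_simp

/-- The same over a finite index type, equal exponents `1 / card`. -/
theorem holder_tsum_lintegral_fintype {ι : Type*} [Fintype ι] [Nonempty ι]
    {X : ℕ → Type*} [∀ N, MeasurableSpace (X N)] (μ : ∀ N, Measure (X N))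
    (c : ℕ → ℝ≥0∞) (f : ι → ∀ N, X N → ℝ≥0∞)
    (hf : ∀ i, ∀ N, AEMeasurable (f i N) (μ N)) :
    ∑' N, c N * ∫⁻ x, ∏ i, f i N x ^ ((Fintype.card ι : ℝ)⁻¹) ∂(μ N) ≤
      ∏ i, (∑' N, c N * ∫⁻ x, f i N x ∂(μ N)) ^ ((Fintype.card ι : ℝ)⁻¹) := by
  have h := holder_tsum_lintegral_card (Finset.univ : Finset ι) Finset.univ_nonempty μ c f
    (fun i _ => hf i)
  simpa [Finset.card_univ] using h

end Vale.Agent.H72
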