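import Mathlib

/-!
# Sets of integers without `k`-th power differences: the digit (Ruzsa) construction

Generic lemmas: from a set `A` of residues modulo a squarefree `m`, no two of which differ by a
`k`-th power residue modulo `m`, one gets for every `q` a set of `(|A| * m^(k-1))^q` naturals below
`(m^k)^q` no two of which differ by a positive `k`-th power.
-/

namespace Vale.Agent.H72

open Finset

/-- `digitSet M B j`: all numbers `b₀ + b₁ M + ⋯ + b_{j-1} M^(j-1)` with digits `bᵢ ∈ B`. -/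
def digitSet (M : ℕ) (B : Finset ℕ) : ℕ → Finset ℕ
  | 0 => {0}
  | j + 1 => (B ×ˢ digitSet M B j).image (fun p => p.1 + M * p.2)

theorem digitSet_lt {M : ℕ} {B : Finset ℕ} (hB : ∀ b ∈ B, b < M) :
    ∀ j, ∀ s ∈ digitSet M B j, s < M ^ j := by
  intro j
  induction j with
  | zero =>
    intro s hs
    simp only [digitSet, mem_singleton] at hs
    simp [hs]
  | succ j ih =>
    intro s hs
    simp only [digitSet, mem_image, mem_product, Prod.exists] at hs
    obtain ⟨b, t, ⟨hb, ht⟩, rfl⟩ := hs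
    have h1 := hB b hb
    have h2 := ih t ht
    calc b + M * t < M + M * t := by omega
      _ = M * (t + 1) := by ring
      _ ≤ M * M ^ j := Nat.mul_le_mul_left _ h2
      _ = M ^ (j + 1) := by ring

theorem digitSet_card {M : ℕ} {B : Finset ℕ} (hB : ∀ b ∈ B, b < M) :
    ∀ j, (digitSet M B j).card = B.card ^ j := by
  intro j
  induction j with
  | zero => simp [digitSet]
  | succ j ih =>
    rw [digitSet, card_image_of_injOn, card_product, ih, pow_succ, mul_comm]
    intro p hp q hq h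
    simp only [coe_product, Set.mem_prod, mem_coe] at hp hq
    have hp1 := hB p.1 hp.1
    have hq1 := hB q.1 hq.1
    have h' : p.1 + M * p.2 = q.1 + M * q.2 := h
    have e1 : p.1 = q.1 := by
      have h3 : (p.1 + M * p.2) % M = (q.1 + M * q.2) % M := by rw [h']
      rw [Nat.add_mul_mod_self_left, Nat.add_mul_mod_self_left, Nat.mod_eq_of_lt hp1,
        Nat.mod_eq_of_lt hq1] at h3
      exact h3
    have hM : 0 < M := by omega
    have e2 : p.2 = q.2 := by
      have h4 : M * p.2 = M * q.2 := by omega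
      exact Nat.eq_of_mul_eq_mul_left hM h4
    exact Prod.ext e1 e2

/-- `PowFree k M B`: no two distinct elements of `B` differ by a `k`-th power residue modulo `M`
(in either order). -/
def PowFree (k M : ℕ) (B : Finset ℕ) : Prop :=
  ∀ a ∈ B, ∀ b ∈ B, a ≠ b → ∀ x : ℕ, ¬ (a ≡ b + x ^ k [MOD M])

theorem digitSet_powFree {k m : ℕ} (hk : 0 < k) (hm : 0 < m) {B : Finset ℕ}
    (hfree : PowFree k (m ^ k) B) :
    ∀ j, ∀ s ∈ digitSet (m ^ k) B j, ∀ t ∈ digitSet (m ^ k) B j, ∀ n : ℕ, 0 < n →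
      s ≠ t + n ^ k := by
  intro j
  induction j with
  | zero =>
    intro s hs t ht n hn h
    simp only [digitSet, mem_singleton] at hs ht
    subst hs ht
    have h0 : 0 < n ^ k := pow_pos hn k
    omega
  | succ j ih =>
    intro s hs t ht n hn h
    simp only [digitSet, mem_image, mem_product, Prod.exists] at hs ht
    obtain ⟨a, s', ⟨ha, hs'⟩, rfl⟩ := hs
    obtain ⟨b, t', ⟨hb, ht'⟩, rfl⟩ := ht
    by_cases hab : a = b
    · subst hab
      have h1 : m ^ k * s' = m ^ k * t' + n ^ k := by omega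
      have hdvd : m ^ k ∣ n ^ k := by
        have h2 : m ^ k ∣ m ^ k * t' + n ^ k := ⟨s', h1.symm⟩
        exact (Nat.dvd_add_right (dvd_mul_right _ _)).mp h2
      have hmn : m ∣ n := (Nat.pow_dvd_pow_iff (Nat.pos_iff_ne_zero.mp hk)).mp hdvd
      obtain ⟨n1, rfl⟩ := hmn
      have hn1 : 0 < n1 := by
        rcases Nat.eq_zero_or_pos n1 with h0 | h0
        · subst h0
          simp at hn
        · exact h0
      have h2 : m ^ k * s' = m ^ k * (t' + n1 ^ k) := by
        rw [h1, mul_pow]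
        ring
      have h3 : s' = t' + n1 ^ k := Nat.eq_of_mul_eq_mul_left (pow_pos hm k) h2
      exact ih s' hs' t' ht' n1 hn1 h3
    · apply hfree a ha b hb hab n
      have h1 : (a + m ^ k * s') % (m ^ k) = (b + n ^ k + m ^ k * t') % (m ^ k) := by
        rw [h]
        congr 1
        ring
      rw [Nat.add_mul_mod_self_left, Nat.add_mul_mod_self_left] at h1
      exact h1

/-- The block of `k` base-`m` digits used in Ruzsa's construction: lowest digit in `A`, the other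
`k - 1` digits free. -/
def ruzsaBlock (k m : ℕ) (A : Finset ℕ) : Finset ℕ :=
  (A ×ˢ range (m ^ (k - 1))).image (fun p => p.1 + m * p.2)

theorem ruzsaBlock_lt {k m : ℕ} (hk : 0 < k) {A : Finset ℕ} (hA : ∀ a ∈ A, a < m) :
    ∀ b ∈ ruzsaBlock k m A, b < m ^ k := by
  intro b hb
  simp only [ruzsaBlock, mem_image, mem_product, mem_range, Prod.exists] at hb
  obtain ⟨a, c, ⟨ha, hc⟩, rfl⟩ := hb
  have h1 := hA a ha
  have hk' : m ^ k = m * m ^ (k - 1) := by
    conv_lhs => rw [show k = (k - 1) + 1 by omega]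
    rw [pow_succ, mul_comm]
  rw [hk']
  calc a + m * c < m + m * c := by omega
    _ = m * (c + 1) := by ring
    _ ≤ m * m ^ (k - 1) := Nat.mul_le_mul_left _ hc

theorem ruzsaBlock_card {k m : ℕ} {A : Finset ℕ} (hA : ∀ a ∈ A, a < m) :
    (ruzsaBlock k m A).card = A.card * m ^ (k - 1) := by
  rw [ruzsaBlock, card_image_of_injOn, card_product, card_range]
  intro p hp q hq h
  simp only [coe_product, Set.mem_prod, mem_coe, mem_range] at hp hq
  have hp1 := hA p.1 hp.1
  have hq1 := hA q.1 hq.1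
  have h' : p.1 + m * p.2 = q.1 + m * q.2 := h
  have e1 : p.1 = q.1 := by
    have h3 : (p.1 + m * p.2) % m = (q.1 + m * q.2) % m := by rw [h']
    rw [Nat.add_mul_mod_self_left, Nat.add_mul_mod_self_left, Nat.mod_eq_of_lt hp1,
      Nat.mod_eq_of_lt hq1] at h3
    exact h3
  have hm : 0 < m := by omega
  have e2 : p.2 = q.2 := by
    have h4 : m * p.2 = m * q.2 := by omega
    exact Nat.eq_of_mul_eq_mul_left hm h4
  exact Prod.ext e1 e2

theorem ruzsaBlock_powFree {k m : ℕ} (hk : 0 < k) (hsq : Squarefree m) {A : Finset ℕ}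
    (hA : ∀ a ∈ A, a < m) (hfree : PowFree k m A) : PowFree k (m ^ k) (ruzsaBlock k m A) := by
  intro u hu v hv huv x hx
  simp only [ruzsaBlock, mem_image, mem_product, mem_range, Prod.exists] at hu hv
  obtain ⟨a, c, ⟨ha, hc⟩, rfl⟩ := hu
  obtain ⟨b, d, ⟨hb, hd⟩, rfl⟩ := hv
  have hm : 0 < m := by
    have := hA a ha
    omega
  have hk' : m ^ k = m * m ^ (k - 1) := by
    conv_lhs => rw [show k = (k - 1) + 1 by omega]
    rw [pow_succ, mul_comm]
  have hmdvd : m ∣ m ^ k := dvd_pow_self m (Nat.pos_iff_ne_zero.mp hk)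
  -- reduce modulo m
  have hxm : a + m * c ≡ b + m * d + x ^ k [MOD m] := hx.of_dvd hmdvd
  have hxm' : a ≡ b + x ^ k [MOD m] := by
    have e1 : (a + m * c) % m = a % m := Nat.add_mul_mod_self_left a m c
    have e2 : (b + m * d + x ^ k) % m = (b + x ^ k) % m := by
      rw [show b + m * d + x ^ k = b + x ^ k + m * d by ring]
      exact Nat.add_mul_mod_self_left _ m d
    unfold Nat.ModEq at hxm ⊢
    rw [e1, e2] at hxm
    exact hxm
  by_cases hab : a = b
  · subst hab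
    -- then m ∣ x ^ k, hence m ∣ x, hence m ^ k ∣ x ^ k
    have h0 : x ^ k ≡ 0 [MOD m] := by
      have h5 : a + 0 ≡ a + x ^ k [MOD m] := by simpa using hxm'
      exact (Nat.ModEq.add_left_cancel' a h5).symm
    have hdx : m ∣ x ^ k := (Nat.modEq_zero_iff_dvd).mp h0
    have hdx' : m ∣ x := (hsq.dvd_pow_iff_dvd (Nat.pos_iff_ne_zero.mp hk)).mp hdx
    have hpow : m ^ k ∣ x ^ k := pow_dvd_pow_of_dvd hdx' k
    have h1 : a + m * c ≡ a + m * d [MOD m ^ k] := by
      have h6 : a + m * d + x ^ k ≡ a + m * d + 0 [MOD m ^ k] :=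
        Nat.ModEq.add_left _ ((Nat.modEq_zero_iff_dvd).mpr hpow)
      exact hx.trans (by simpa using h6)
    have h2 : m * c ≡ m * d [MOD m * m ^ (k - 1)] := by
      rw [← hk']
      exact Nat.ModEq.add_left_cancel' a h1
    have h3 : c ≡ d [MOD m ^ (k - 1)] :=
      Nat.ModEq.mul_left_cancel' (Nat.pos_iff_ne_zero.mp hm) h2
    have h4 : c = d := Nat.ModEq.eq_of_lt_of_lt h3 hc hd
    exact huv (by rw [h4])
  · exact hfree a ha b hb hab x hxm'

/-- Ruzsa's construction, finite form. -/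
theorem ruzsa_construction {k m : ℕ} (hk : 0 < k) (hsq : Squarefree m) {A : Finset ℕ}
    (hA : ∀ a ∈ A, a < m) (hfree : PowFree k m A) (hne : A.Nonempty) (q : ℕ) :
    ∃ S : Finset ℕ, (∀ s ∈ S, s < (m ^ k) ^ q) ∧ S.card = (A.card * m ^ (k - 1)) ^ q ∧
      ∀ s ∈ S, ∀ t ∈ S, ∀ n : ℕ, 0 < n → s ≠ t + n ^ k := by
  have hm : 0 < m := by
    obtain ⟨a, ha⟩ := hne
    have := hA a ha
    omega
  refine ⟨digitSet (m ^ k) (ruzsaBlock k m A) q, ?_, ?_, ?_⟩
  · exact digitSet_lt (ruzsaBlock_lt hk hA) q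
  · rw [digitSet_card (ruzsaBlock_lt hk hA) q, ruzsaBlock_card hA]
  · exact digitSet_powFree hk hm (ruzsaBlock_powFree hk hsq hA hfree) q

/-- A finite criterion for `PowFree`: it suffices to test `x < M`. -/
theorem powFree_of_check {k M : ℕ} (hM : 0 < M) {B : Finset ℕ}
    (h : ∀ a ∈ B, ∀ b ∈ B, a ≠ b → ∀ x ∈ Finset.range M, (b + x ^ k) % M ≠ a % M) :
    PowFree k M B := by
  intro a ha b hb hab x hx
  apply h a ha b hb hab (x % M) (Finset.mem_range.mpr (Nat.mod_lt _ hM))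
  unfold Nat.ModEq at hx
  rw [hx, Nat.add_mod b (x ^ k), Nat.add_mod b ((x % M) ^ k), ← Nat.pow_mod]

/-- The exponent identity behind Ruzsa's bound. -/
theorem ruzsa_exponent {k m a : ℕ} (hk : 0 < k) (hm : 1 < m) (ha : 0 < a) :
    ((m ^ k : ℕ) : ℝ) ^ (((k : ℝ) - 1 + Real.log a / Real.log m) / k) =
      ((a * m ^ (k - 1) : ℕ) : ℝ) := by
  have hm0 : (0 : ℝ) < m := by exact_mod_cast (by omega : 0 < m)
  have hlm : Real.log m ≠ 0 := by
    have h1 : (1 : ℝ) < m := by exact_mod_cast hm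
    exact ne_of_gt (Real.log_pos h1)
  have ha0 : (0 : ℝ) < a := by exact_mod_cast ha
  have hk0 : (k : ℝ) ≠ 0 := by exact_mod_cast (Nat.pos_iff_ne_zero.mp hk)
  push_cast
  rw [← Real.rpow_natCast, ← Real.rpow_mul hm0.le]
  have e : (k : ℝ) * (((k : ℝ) - 1 + Real.log a / Real.log m) / k) =
      ((k - 1 : ℕ) : ℝ) + Real.log a / Real.log m := by
    rw [Nat.cast_sub hk]
    push_cast
    field_simp
  rw [e, Real.rpow_add hm0, Real.rpow_natCast]
  have h2 : (m : ℝ) ^ (Real.log a / Real.log m) = a := by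
    rw [Real.rpow_def_of_pos hm0, mul_div_cancel₀ _ hlm, Real.exp_log ha0]
  rw [h2, mul_comm]

/-- Ruzsa's construction, quantitative form on initial segments `[1, N]`. -/
theorem ruzsa_lower_bound {k m : ℕ} (hk : 0 < k) (hm : 1 < m) (hsq : Squarefree m)
    {A : Finset ℕ} (hA : ∀ a ∈ A, a < m) (hfree : PowFree k m A) (hne : A.Nonempty)
    {γ : ℝ} (hγ0 : 0 ≤ γ)
    (hγ : ((m ^ k : ℕ) : ℝ) ^ γ ≤ ((A.card * m ^ (k - 1) : ℕ) : ℝ)) (N : ℕ) (hN : 1 ≤ N) :
    ∃ S : Finset ℕ, S ⊆ Finset.Icc 1 N ∧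
      (∀ s ∈ S, ∀ t ∈ S, ∀ n : ℕ, 0 < n → s ≠ t + n ^ k) ∧
      (N : ℝ) ^ γ / ((A.card * m ^ (k - 1) : ℕ) : ℝ) ≤ (S.card : ℝ) := by
  have hM : 1 < m ^ k := Nat.one_lt_pow (Nat.pos_iff_ne_zero.mp hk) hm
  have hb : 0 < A.card * m ^ (k - 1) :=
    Nat.mul_pos (Finset.card_pos.mpr hne) (pow_pos (by omega) _)
  have hq1 : (m ^ k) ^ (Nat.log (m ^ k) N) ≤ N := Nat.pow_log_le_self (m ^ k) (by omega)
  have hq2 : N < (m ^ k) ^ (Nat.log (m ^ k) N + 1) := Nat.lt_pow_succ_log_self hM N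
  obtain ⟨S0, hS0lt, hS0card, hS0free⟩ :=
    ruzsa_construction hk hsq hA hfree hne (Nat.log (m ^ k) N)
  refine ⟨S0.image (· + 1), ?_, ?_, ?_⟩
  · intro s hs
    simp only [Finset.mem_image] at hs
    obtain ⟨t, ht, rfl⟩ := hs
    have := hS0lt t ht
    simp only [Finset.mem_Icc]
    omega
  · intro s hs t ht n hn h
    simp only [Finset.mem_image] at hs ht
    obtain ⟨s', hs', rfl⟩ := hs
    obtain ⟨t', ht', rfl⟩ := ht
    exact hS0free s' hs' t' ht' n hn (by omega)
  · rw [Finset.card_image_of_injective _ (add_left_injective 1), hS0card]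
    have hbR : (0 : ℝ) < ((A.card * m ^ (k - 1) : ℕ) : ℝ) := by exact_mod_cast hb
    rw [div_le_iff₀ hbR]
    have h1 : (N : ℝ) ≤ (((m ^ k : ℕ) : ℝ)) ^ (Nat.log (m ^ k) N + 1) := by
      exact_mod_cast hq2.le
    have hMR : (0 : ℝ) ≤ ((m ^ k : ℕ) : ℝ) := by positivity
    calc (N : ℝ) ^ γ ≤ ((((m ^ k : ℕ) : ℝ)) ^ (Nat.log (m ^ k) N + 1)) ^ γ :=
          Real.rpow_le_rpow (by positivity) h1 hγ0
      _ = ((((m ^ k : ℕ) : ℝ)) ^ γ) ^ (Nat.log (m ^ k) N + 1) := by
          rw [← Real.rpow_natCast, ← Real.rpow_mul hMR, mul_comm, Real.rpow_mul hMR,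
            Real.rpow_natCast]
      _ ≤ (((A.card * m ^ (k - 1) : ℕ) : ℝ)) ^ (Nat.log (m ^ k) N + 1) :=
          pow_le_pow_left₀ (by positivity) hγ _
      _ = (((A.card * m ^ (k - 1)) ^ (Nat.log (m ^ k) N) : ℕ) : ℝ) *
            ((A.card * m ^ (k - 1) : ℕ) : ℝ) := by
          push_cast
          ring

end Vale.Agent.H72
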