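import Mathlib
import Vale.Agent.H72.PowerDiff

/-!
# Residue sets for `k`-th power differences modulo a prime

Two sources of sets of residues modulo a prime `p` no two of which differ by a `k`-th power
residue: a greedy (maximal) set when `2 k ∣ p - 1`, and the even residues when `p = 2 k + 1`.
Together with the digit construction of `PowerDiff.lean` they give lower bounds for sets of
integers without `k`-th power differences.
-/

namespace Vale.Agent.H72

open Finset

/-- A maximal set of residues modulo `p` no two of which differ by an `e`-th root of unity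
(`e` even) has at least `p / (e + 1)` elements. -/
theorem greedy_indep (p : ℕ) [Fact p.Prime] (e : ℕ) (he0 : 0 < e) (he : Even e) :
    ∃ I : Finset (ZMod p), (∀ a ∈ I, ∀ b ∈ I, a ≠ b → (a - b) ^ e ≠ 1) ∧
      p ≤ I.card * (e + 1) := by
  classical
  obtain ⟨I, hI, hmax⟩ := Finset.exists_max_image
    (Finset.univ.filter fun I : Finset (ZMod p) => ∀ a ∈ I, ∀ b ∈ I, a ≠ b → (a - b) ^ e ≠ 1)
    Finset.card ⟨∅, by simp⟩
  rw [Finset.mem_filter] at hI
  have hIP := hI.2
  refine ⟨I, hIP, ?_⟩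
  have hScard : ((Polynomial.nthRoots e (1 : ZMod p)).toFinset).card ≤ e :=
    (Multiset.toFinset_card_le _).trans (Polynomial.card_nthRoots e 1)
  have hSmem : ∀ y : ZMod p, y ^ e = 1 → y ∈ (Polynomial.nthRoots e (1 : ZMod p)).toFinset := by
    intro y hy
    rw [Multiset.mem_toFinset, Polynomial.mem_nthRoots he0]
    exact hy
  have hcover : (Finset.univ : Finset (ZMod p)) ⊆
      (I ×ˢ insert 0 (Polynomial.nthRoots e (1 : ZMod p)).toFinset).image
        (fun q => q.1 + q.2) := by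
    intro v _
    rw [Finset.mem_image]
    by_cases hv : v ∈ I
    · exact ⟨(v, 0), by simp [hv], by simp⟩
    · have hnot : ¬ ∀ a ∈ insert v I, ∀ b ∈ insert v I, a ≠ b → (a - b) ^ e ≠ 1 := by
        intro hP
        have h1 := hmax (insert v I) (by
          rw [Finset.mem_filter]
          exact ⟨Finset.mem_univ _, hP⟩)
        rw [Finset.card_insert_of_notMem hv] at h1
        omega
      push Not at hnot
      obtain ⟨a, ha, b, hb, hab, h1⟩ := hnot
      rw [Finset.mem_insert] at ha hb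
      rcases ha with ha | ha
      · rcases hb with hb | hb
        · exact absurd (ha.trans hb.symm) hab
        · rw [ha] at h1
          exact ⟨(b, v - b), by simp [hb, hSmem _ h1], by simp⟩
      · rcases hb with hb | hb
        · rw [hb] at h1
          have h2 : (v - a) ^ e = 1 := by
            rw [← neg_sub, he.neg_pow]
            exact h1
          exact ⟨(a, v - a), by simp [ha, hSmem _ h2], by simp⟩
        · exact absurd h1 (hIP a ha b hb hab)
  have hcard := Finset.card_le_card hcover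
  rw [Finset.card_univ, ZMod.card] at hcard
  calc p ≤ ((I ×ˢ insert 0 (Polynomial.nthRoots e (1 : ZMod p)).toFinset).image
        (fun q => q.1 + q.2)).card := hcard
    _ ≤ (I ×ˢ insert 0 (Polynomial.nthRoots e (1 : ZMod p)).toFinset).card :=
        Finset.card_image_le
    _ = I.card * (insert 0 (Polynomial.nthRoots e (1 : ZMod p)).toFinset).card :=
        Finset.card_product _ _
    _ ≤ I.card * (e + 1) :=
        Nat.mul_le_mul_left _ ((Finset.card_insert_le _ _).trans (by omega))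

/-- Residues no two of which differ by an `e`-th root of unity, `k * e = p - 1`, never differ
by a `k`-th power residue. -/
theorem powFree_of_indep (k p : ℕ) [Fact p.Prime] (hk : 0 < k) (e : ℕ) (hke : k * e = p - 1)
    (I : Finset (ZMod p)) (hI : ∀ a ∈ I, ∀ b ∈ I, a ≠ b → (a - b) ^ e ≠ 1) :
    PowFree k p (I.image ZMod.val) := by
  have : NeZero p := ⟨(Fact.out : p.Prime).ne_zero⟩
  intro a' ha' b' hb' hab x hx
  rw [Finset.mem_image] at ha' hb'
  obtain ⟨a, ha, rfl⟩ := ha'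
  obtain ⟨b, hb, rfl⟩ := hb'
  have hne : a ≠ b := fun h => hab (by rw [h])
  have h1 : ((a.val : ℕ) : ZMod p) = ((b.val + x ^ k : ℕ) : ZMod p) :=
    (ZMod.natCast_eq_natCast_iff _ _ _).mpr hx
  rw [Nat.cast_add, Nat.cast_pow, ZMod.natCast_zmod_val, ZMod.natCast_zmod_val] at h1
  have h2 : a - b = (x : ZMod p) ^ k := by
    rw [h1]
    ring
  by_cases hx0 : (x : ZMod p) = 0
  · rw [hx0, zero_pow (by omega)] at h2
    exact hne (sub_eq_zero.mp h2)
  · apply hI a ha b hb hne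
    rw [h2, ← pow_mul, hke]
    exact ZMod.pow_card_sub_one_eq_one hx0

/-- The exponent identity of Ruzsa's bound with a real numerator. -/
theorem ruzsa_exponent_real {k m : ℕ} (hk : 0 < k) (hm : 1 < m) {r : ℝ} (hr : 0 < r) :
    ((m ^ k : ℕ) : ℝ) ^ (1 - 1 / (k : ℝ) + Real.log r / ((k : ℝ) * Real.log m)) =
      r * (m : ℝ) ^ (k - 1) := by
  have hm0 : (0 : ℝ) < m := by exact_mod_cast (by omega : 0 < m)
  have hlm : Real.log m ≠ 0 := by
    have h1 : (1 : ℝ) < m := by exact_mod_cast hm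
    exact ne_of_gt (Real.log_pos h1)
  have hk0 : (k : ℝ) ≠ 0 := by exact_mod_cast (Nat.pos_iff_ne_zero.mp hk)
  push_cast
  rw [← Real.rpow_natCast, ← Real.rpow_mul hm0.le]
  have e : (k : ℝ) * (1 - 1 / (k : ℝ) + Real.log r / ((k : ℝ) * Real.log m)) =
      ((k - 1 : ℕ) : ℝ) + Real.log r / Real.log m := by
    rw [Nat.cast_sub hk]
    push_cast
    field_simp
  rw [e, Real.rpow_add hm0, Real.rpow_natCast]
  have h2 : (m : ℝ) ^ (Real.log r / Real.log m) = r := by
    rw [Real.rpow_def_of_pos hm0, mul_div_cancel₀ _ hlm, Real.exp_log hr]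
  rw [h2, mul_comm]

/-- Lower bound from a residue set modulo a prime with a real lower bound `r` for its size. -/
theorem prime_lower_bound {k p : ℕ} (hk : 0 < k) (hp : p.Prime) {B : Finset ℕ}
    (hB : ∀ b ∈ B, b < p) (hfree : PowFree k p B) {r : ℝ} (hr1 : 1 ≤ r)
    (hrB : r ≤ (B.card : ℝ)) :
    ∃ c : ℝ, 0 < c ∧ ∀ N : ℕ, 1 ≤ N → ∃ A : Finset ℕ, A ⊆ Finset.Icc 1 N ∧
      (∀ a ∈ A, ∀ b ∈ A, ∀ n : ℕ, 0 < n → a ≠ b + n ^ k) ∧
      c * (N : ℝ) ^ (1 - 1 / (k : ℝ) + Real.log r / ((k : ℝ) * Real.log p)) ≤ (A.card : ℝ) := by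
  have hp1 : 1 < p := hp.one_lt
  have hpR : (1 : ℝ) < p := by exact_mod_cast hp1
  have hkR : (1 : ℝ) ≤ k := by exact_mod_cast hk
  have hBpos : 0 < B.card := by
    have h0 : (0 : ℝ) < (B.card : ℝ) := by linarith
    exact_mod_cast h0
  have hne : B.Nonempty := Finset.card_pos.mp hBpos
  have hb : 0 < B.card * p ^ (k - 1) := Nat.mul_pos hBpos (pow_pos (by omega) _)
  have hbR : (0 : ℝ) < ((B.card * p ^ (k - 1) : ℕ) : ℝ) := by exact_mod_cast hb
  have hγle : ((p ^ k : ℕ) : ℝ) ^ (1 - 1 / (k : ℝ) + Real.log r / ((k : ℝ) * Real.log p))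
      ≤ ((B.card * p ^ (k - 1) : ℕ) : ℝ) := by
    rw [ruzsa_exponent_real hk hp1 (by linarith)]
    push_cast
    exact mul_le_mul_of_nonneg_right hrB (by positivity)
  have hγ0 : (0 : ℝ) ≤ 1 - 1 / (k : ℝ) + Real.log r / ((k : ℝ) * Real.log p) := by
    have h1 : 0 ≤ Real.log r := Real.log_nonneg hr1
    have h2 : 0 < Real.log p := Real.log_pos hpR
    have h3 : 1 / (k : ℝ) ≤ 1 := by
      rw [div_le_one (by linarith)]
      exact hkR
    have h4 : 0 ≤ Real.log r / ((k : ℝ) * Real.log p) := by positivity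
    linarith
  refine ⟨1 / ((B.card * p ^ (k - 1) : ℕ) : ℝ), one_div_pos.mpr hbR, ?_⟩
  intro N hN
  obtain ⟨S, hS1, hS2, hS3⟩ := ruzsa_lower_bound (k := k) (m := p) hk hp1 hp.squarefree hB hfree
    hne hγ0 hγle N hN
  refine ⟨S, hS1, hS2, ?_⟩
  calc 1 / ((B.card * p ^ (k - 1) : ℕ) : ℝ) *
        (N : ℝ) ^ (1 - 1 / (k : ℝ) + Real.log r / ((k : ℝ) * Real.log p))
      = (N : ℝ) ^ (1 - 1 / (k : ℝ) + Real.log r / ((k : ℝ) * Real.log p)) /
          ((B.card * p ^ (k - 1) : ℕ) : ℝ) := by ring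
    _ ≤ (S.card : ℝ) := hS3

/-- For every prime `p ≡ 1 (mod 2k)`: exponent `1 - 1/k + log (k p / (p + k - 1)) / (k log p)`. -/
theorem kth_power_greedy_bound (k p : ℕ) (hk : 2 ≤ k) (hp : p.Prime) (h : 2 * k ∣ p - 1) :
    ∃ c : ℝ, 0 < c ∧ ∀ N : ℕ, 1 ≤ N → ∃ A : Finset ℕ, A ⊆ Finset.Icc 1 N ∧
      (∀ a ∈ A, ∀ b ∈ A, ∀ n : ℕ, 0 < n → a ≠ b + n ^ k) ∧
      c * (N : ℝ) ^ (1 - 1 / (k : ℝ) +
        Real.log ((k : ℝ) * p / ((p : ℝ) + k - 1)) / ((k : ℝ) * Real.log p)) ≤ (A.card : ℝ) := by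
  have := Fact.mk hp
  have hnz : NeZero p := ⟨hp.ne_zero⟩
  obtain ⟨j, hj⟩ := h
  have hp2 : 2 ≤ p := hp.two_le
  have hj0 : 0 < j := by
    rcases Nat.eq_zero_or_pos j with h0 | h0
    · rw [h0] at hj
      omega
    · exact h0
  have hke : k * (2 * j) = p - 1 := by
    rw [hj]
    ring
  obtain ⟨I, hI, hcard⟩ := greedy_indep p (2 * j) (by omega) ⟨j, by omega⟩
  have hfree := powFree_of_indep k p (by omega) (2 * j) hke I hI
  have hBcard : (I.image ZMod.val).card = I.card :=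
    Finset.card_image_of_injective _ (ZMod.val_injective p)
  have hBlt : ∀ b ∈ I.image ZMod.val, b < p := by
    intro b hb
    rw [Finset.mem_image] at hb
    obtain ⟨a, _, rfl⟩ := hb
    exact ZMod.val_lt a
  have hpR : (2 : ℝ) ≤ p := by exact_mod_cast hp2
  have hkR : (2 : ℝ) ≤ k := by exact_mod_cast hk
  have hden : (0 : ℝ) < (p : ℝ) + k - 1 := by linarith
  have hr1 : 1 ≤ (k : ℝ) * p / ((p : ℝ) + k - 1) := by
    rw [le_div_iff₀ hden]
    nlinarith
  have hrB : (k : ℝ) * p / ((p : ℝ) + k - 1) ≤ ((I.image ZMod.val).card : ℝ) := by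
    rw [div_le_iff₀ hden, hBcard]
    have h1 : (p : ℝ) ≤ (I.card : ℝ) * ((2 * j : ℕ) + 1) := by exact_mod_cast hcard
    have h2 : (k : ℝ) * ((2 * j : ℕ) : ℝ) = (p : ℝ) - 1 := by
      have h3 : ((k * (2 * j) : ℕ) : ℝ) = ((p - 1 : ℕ) : ℝ) := by rw [hke]
      rw [Nat.cast_mul, Nat.cast_sub (by omega)] at h3
      simpa using h3
    have h4 := mul_le_mul_of_nonneg_left h1 (by positivity : (0 : ℝ) ≤ (k : ℝ))
    calc (k : ℝ) * p ≤ (k : ℝ) * ((I.card : ℝ) * ((2 * j : ℕ) + 1)) := h4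
      _ = (I.card : ℝ) * ((k : ℝ) * ((2 * j : ℕ) : ℝ) + k) := by ring
      _ = (I.card : ℝ) * ((p : ℝ) + k - 1) := by
          rw [h2]
          ring
  exact prime_lower_bound (by omega) hp hBlt hfree hr1 hrB

/-- The even residues `0, 2, …, 2 (k - 1)` modulo a prime `2 k + 1` never differ by a `k`-th
power residue. -/
theorem powFree_evens (k : ℕ) (hk : 0 < k) (hp : (2 * k + 1).Prime) :
    PowFree k (2 * k + 1) ((Finset.range k).image fun i => 2 * i) := by
  have := Fact.mk hp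
  intro a ha b hb hab x hx
  rw [Finset.mem_image] at ha hb
  obtain ⟨i, hi, rfl⟩ := ha
  obtain ⟨i', hi', rfl⟩ := hb
  rw [Finset.mem_range] at hi hi'
  have h1 : ((2 * i : ℕ) : ZMod (2 * k + 1)) = ((2 * i' + x ^ k : ℕ) : ZMod (2 * k + 1)) :=
    (ZMod.natCast_eq_natCast_iff _ _ _).mpr hx
  rw [Nat.cast_add, Nat.cast_pow] at h1
  have hy : (x : ZMod (2 * k + 1)) ^ k = 0 ∨ (x : ZMod (2 * k + 1)) ^ k = 1 ∨
      (x : ZMod (2 * k + 1)) ^ k = -1 := by
    by_cases hx0 : (x : ZMod (2 * k + 1)) = 0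
    · left
      rw [hx0, zero_pow (by omega)]
    · right
      have h2 : ((x : ZMod (2 * k + 1)) ^ k) ^ 2 = 1 := by
        rw [← pow_mul]
        have h3 := ZMod.pow_card_sub_one_eq_one hx0
        have h4 : 2 * k + 1 - 1 = k * 2 := by omega
        rw [h4] at h3
        exact h3
      have h5 : ((x : ZMod (2 * k + 1)) ^ k - 1) * ((x : ZMod (2 * k + 1)) ^ k + 1) = 0 := by
        have h6 : ((x : ZMod (2 * k + 1)) ^ k - 1) * ((x : ZMod (2 * k + 1)) ^ k + 1)
            = ((x : ZMod (2 * k + 1)) ^ k) ^ 2 - 1 := by ring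
        rw [h6, h2, sub_self]
      rcases mul_eq_zero.mp h5 with h7 | h7
      · left
        exact sub_eq_zero.mp h7
      · right
        exact eq_neg_of_add_eq_zero_left h7
  rcases hy with hy | hy | hy
  · rw [hy, add_zero] at h1
    have h8 := (ZMod.natCast_eq_natCast_iff' _ _ _).mp h1
    rw [Nat.mod_eq_of_lt (by omega), Nat.mod_eq_of_lt (by omega)] at h8
    exact hab h8
  · rw [hy] at h1
    have h9 : ((2 * i : ℕ) : ZMod (2 * k + 1)) = ((2 * i' + 1 : ℕ) : ZMod (2 * k + 1)) := by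
      rw [h1]
      push_cast
      ring
    have h8 := (ZMod.natCast_eq_natCast_iff' _ _ _).mp h9
    rw [Nat.mod_eq_of_lt (by omega), Nat.mod_eq_of_lt (by omega)] at h8
    omega
  · rw [hy] at h1
    have h9 : ((2 * i + 1 : ℕ) : ZMod (2 * k + 1)) = ((2 * i' : ℕ) : ZMod (2 * k + 1)) := by
      push_cast
      push_cast at h1
      rw [h1]
      ring
    have h8 := (ZMod.natCast_eq_natCast_iff' _ _ _).mp h9
    rw [Nat.mod_eq_of_lt (by omega), Nat.mod_eq_of_lt (by omega)] at h8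
    omega

/-- If `2 k + 1` is prime: exponent `1 - 1/k + log k / (k log (2 k + 1))`. -/
theorem kth_power_cycle_bound (k : ℕ) (hk : 1 ≤ k) (hp : (2 * k + 1).Prime) :
    ∃ c : ℝ, 0 < c ∧ ∀ N : ℕ, 1 ≤ N → ∃ A : Finset ℕ, A ⊆ Finset.Icc 1 N ∧
      (∀ a ∈ A, ∀ b ∈ A, ∀ n : ℕ, 0 < n → a ≠ b + n ^ k) ∧
      c * (N : ℝ) ^ (1 - 1 / (k : ℝ) +
        Real.log (k : ℝ) / ((k : ℝ) * Real.log ((2 * k + 1 : ℕ) : ℝ))) ≤ (A.card : ℝ) := by
  have hBcard : ((Finset.range k).image fun i => 2 * i).card = k := by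
    rw [Finset.card_image_of_injective _ (fun a b h => by
      have h' : 2 * a = 2 * b := h
      omega), Finset.card_range]
  have hBlt : ∀ b ∈ (Finset.range k).image fun i => 2 * i, b < 2 * k + 1 := by
    intro b hb
    rw [Finset.mem_image] at hb
    obtain ⟨i, hi, rfl⟩ := hb
    rw [Finset.mem_range] at hi
    omega
  have hkR : (1 : ℝ) ≤ (k : ℝ) := by exact_mod_cast hk
  exact prime_lower_bound (by omega) hp hBlt (powFree_evens k (by omega) hp) hkR
    (by rw [hBcard])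

end Vale.Agent.H72
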